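import Vale.Agent.P214W79.Lin
import Vale.Agent.P214.CST.Main

/-! The mean curvature vector does not depend on the parametrisation. -/

open Set Filter Topology Metric
open scoped ContDiff RealInnerProductSpace

set_option linter.unusedSectionVars false

namespace Vale.Agent.P214W79

open Vale.Agent.P214 Vale.Agent.P214.CST

variable {E : Type*} [NormedAddCommGroup E] [InnerProductSpace ℝ E] [FiniteDimensional ℝ E]
variable {m : ℕ} {S W' : Set E} (P : Patch m S W')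

/-- the retraction onto the patch -/
def ret : E → E := P.i ∘ P.κ

lemma contDiffAt_ret {y : E} (hy : y ∈ W') : ContDiffAt ℝ ∞ (ret P) y :=
  (P.contDiffAt_i (P.maps_κ y hy)).comp y (P.contDiffAt_κ hy)

lemma fderiv_ret {y : E} (hy : y ∈ W') :
    fderiv ℝ (ret P) y = (fderiv ℝ P.i (P.κ y)).comp (fderiv ℝ P.κ y) :=
  ((P.hasFDerivAt_i (P.maps_κ y hy)).comp y (P.hasFDerivAt_κ hy)).fderiv

lemma fderiv_ret_mem {y : E} (hy : y ∈ W') (w : E) : fderiv ℝ (ret P) y w ∈ P.tan (P.κ y) := by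
  rw [fderiv_ret P hy]
  exact P.fderiv_mem_tan _ _

/-- the mean curvature vector computed from the retraction -/
noncomputable def hv (y : E) : E :=
  proj (P.tan (P.κ y))ᗮ (∑ k, fderiv ℝ (fderiv ℝ (ret P)) y
    (proj (P.tan (P.κ y)) (stdOrthonormalBasis ℝ E k)) (stdOrthonormalBasis ℝ E k))

variable {O : Set (EuclideanSpace ℝ (Fin m))} {φ : EuclideanSpace ℝ (Fin m) → E}

lemma IsParam.contDiffAt (h : IsParam S O φ) {a : EuclideanSpace ℝ (Fin m)} (ha : a ∈ O) :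
    ContDiffAt ℝ ∞ φ a := h.2.1.contDiffAt (h.1.mem_nhds ha)

lemma IsParam.contDiffAt_pd (h : IsParam S O φ) {a : EuclideanSpace ℝ (Fin m)} (ha : a ∈ O)
    (j : Fin m) : ContDiffAt ℝ ∞ (pd φ j) a :=
  ((h.contDiffAt ha).fderiv_right (m := ∞) (by simp)).clm_apply contDiffAt_const

include P in
lemma eventually_mem (h : IsParam S O φ) {a : EuclideanSpace ℝ (Fin m)} (ha : a ∈ O)
    (hW : φ a ∈ W') : ∀ᶠ a' in 𝓝 a, a' ∈ O ∧ φ a' ∈ W' := by
  filter_upwards [h.1.mem_nhds ha,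
    (h.contDiffAt ha).continuousAt.preimage_mem_nhds (P.isOpen.mem_nhds hW)] with a' h1 h2
  exact ⟨h1, h2⟩

lemma pd_eq (h : IsParam S O φ) {a : EuclideanSpace ℝ (Fin m)} (ha : a ∈ O)
    (hW : φ a ∈ W') (j : Fin m) : pd φ j a = fderiv ℝ (ret P) (φ a) (pd φ j a) := by
  have h1 : φ =ᶠ[𝓝 a] ret P ∘ φ := by
    filter_upwards [eventually_mem P h ha hW] with a' h'
    exact (P.right_inv _ ⟨h.2.2.1 h'.1, h'.2⟩).symm
  have h2 : HasFDerivAt (ret P ∘ φ) ((fderiv ℝ (ret P) (φ a)).comp (fderiv ℝ φ a)) a :=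
    ((contDiffAt_ret P hW).differentiableAt (by simp)).hasFDerivAt.comp a
      ((h.contDiffAt ha).differentiableAt (by simp)).hasFDerivAt
  have h3 : fderiv ℝ φ a = (fderiv ℝ (ret P) (φ a)).comp (fderiv ℝ φ a) :=
    h1.fderiv_eq.trans h2.fderiv
  exact congrArg (fun L : EuclideanSpace ℝ (Fin m) →L[ℝ] E => L (EuclideanSpace.single j 1)) h3

lemma span_pd (h : IsParam S O φ) {a : EuclideanSpace ℝ (Fin m)} (ha : a ∈ O)
    (hW : φ a ∈ W') : Submodule.span ℝ (range fun k => pd φ k a) = P.tan (P.κ (φ a)) := by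
  refine Submodule.eq_of_le_of_finrank_eq (Submodule.span_le.2 ?_) ?_
  · rintro _ ⟨k, rfl⟩
    show pd φ k a ∈ _
    rw [pd_eq P h ha hW]
    exact fderiv_ret_mem P hW _
  · rw [finrank_span_eq_card (linearIndependent_pd (h.2.2.2 a ha)),
      P.finrank_tan (P.maps_κ _ hW), Fintype.card_fin]

lemma pd_pd_eq (h : IsParam S O φ) {a : EuclideanSpace ℝ (Fin m)} (ha : a ∈ O)
    (hW : φ a ∈ W') (i j : Fin m) :
    pd (pd φ j) i a = fderiv ℝ (fderiv ℝ (ret P)) (φ a) (pd φ i a) (pd φ j a)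
      + fderiv ℝ (ret P) (φ a) (pd (pd φ j) i a) := by
  have h1 : pd φ j =ᶠ[𝓝 a] fun a' => fderiv ℝ (ret P) (φ a') (pd φ j a') := by
    filter_upwards [eventually_mem P h ha hW] with a' h'
    exact pd_eq P h h'.1 h'.2 j
  have h2 : HasFDerivAt (fun a' => fderiv ℝ (ret P) (φ a'))
      ((fderiv ℝ (fderiv ℝ (ret P)) (φ a)).comp (fderiv ℝ φ a)) a :=
    ((((contDiffAt_ret P hW).fderiv_right (m := ∞) (by simp)).differentiableAt
      (by simp)).hasFDerivAt).comp a ((h.contDiffAt ha).differentiableAt (by simp)).hasFDerivAt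
  have h3 : HasFDerivAt (pd φ j) (fderiv ℝ (pd φ j) a) a :=
    ((h.contDiffAt_pd ha j).differentiableAt (by simp)).hasFDerivAt
  have h4 := h1.fderiv_eq.trans (h2.clm_apply h3).fderiv
  have h5 := congrArg
    (fun L : EuclideanSpace ℝ (Fin m) →L[ℝ] E => L (EuclideanSpace.single i 1)) h4
  refine h5.trans ?_
  rw [add_comm]
  rfl

lemma proj_orth_eq_zero {T : Submodule ℝ E} {w : E} (hw : w ∈ T) : proj Tᗮ w = 0 :=
  Submodule.starProjection_orthogonal_apply_eq_zero hw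

lemma meanCurv_eq (h : IsParam S O φ) {a : EuclideanSpace ℝ (Fin m)} (ha : a ∈ O)
    (hW : φ a ∈ W') : meanCurv φ a = hv P (φ a) := by
  unfold meanCurv hv
  rw [← span_pd P h ha hW, ← sum_gram_inv (linearIndependent_pd (h.2.2.2 a ha)), map_sum]
  refine Finset.sum_congr rfl fun i _ => ?_
  rw [map_sum]
  refine Finset.sum_congr rfl fun j _ => ?_
  rw [map_smul, pd_pd_eq P h ha hW, map_add, proj_orth_eq_zero (w := fderiv ℝ (ret P) (φ a) _),
    add_zero]
  rw [span_pd P h ha hW]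
  exact fderiv_ret_mem P hW _

lemma isParam_i : IsParam S (ball 0 P.ρ) P.i :=
  ⟨isOpen_ball, P.smooth_i, fun x hx => (P.maps_i x hx).1, fun _ hx => P.injective_fderiv hx⟩

lemma isMeanCurv_hv {y : E} (hy : y ∈ W') : IsMeanCurv m S y (hv P y) := by
  intro O φ h a ha hay
  rw [← hay] at hy ⊢
  exact meanCurv_eq P h ha hy

lemma meanCurv_i {y : E} (hy : y ∈ S ∩ W') : meanCurv P.i (P.κ y) = hv P y :=
  isMeanCurv_hv P hy.2 _ _ (isParam_i P) _ (P.maps_κ y hy.2) (P.right_inv y hy)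

/-- a smooth submanifold has exactly one mean curvature vector at each point -/
theorem existsUnique_meanCurv (hS : IsSmoothSubmanifold m S) {p : E} (hp : p ∈ S) :
    ∃! H : E, IsMeanCurv m S p H := by
  obtain ⟨W', hpW, -, P, -⟩ := exists_patch hS hp univ_mem
  refine ⟨hv P p, isMeanCurv_hv P hpW, fun H hH => ?_⟩
  rw [← meanCurv_i P ⟨hp, hpW⟩]
  exact (hH _ _ (isParam_i P) _ (P.maps_κ p hpW) (P.right_inv p ⟨hp, hpW⟩)).symm

end Vale.Agent.P214W79
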