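import Vale.Agent.P214.MathlibUsed
import Mathlib.Analysis.InnerProductSpace.GramMatrix
import Mathlib.Geometry.Euclidean.Volume.Measure

/-! Integral varifolds and their singular set, with the normalised Hausdorff measure `μHE[m]`
(the multiple of Mathlib's `μH[m]` that is Lebesgue measure on `ℝ^m`) and with minimal
submanifolds defined by the vanishing of the mean curvature vector. -/

open MeasureTheory Set Filter Topology
open scoped ENNReal NNReal

namespace Vale.Agent.P214W79

variable {E : Type*} [NormedAddCommGroup E] [InnerProductSpace ℝ E] [FiniteDimensional ℝ E]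
  [MeasurableSpace E] [BorelSpace E]

/-- orthogonal projection onto a plane -/
noncomputable def proj (T : Submodule ℝ E) : E →L[ℝ] E := T.starProjection

/-- `C^1` vector fields with compact support in `U` -/
def IsTestField (U : Set E) (X : E → E) : Prop :=
  ContDiff ℝ 1 X ∧ HasCompactSupport X ∧ tsupport X ⊆ U

/-- `tr (P_T DX(x))` -/
noncomputable def divAlong (T : Submodule ℝ E) (X : E → E) (x : E) : ℝ :=
  LinearMap.trace ℝ E ((proj T).comp (fderiv ℝ X x)).toLinearMap

/-- `S` is a smooth embedded `m`-dimensional submanifold (locally straightened by a smooth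
diffeomorphism between open sets). -/
def IsSmoothSubmanifold (m : ℕ) (S : Set E) : Prop :=
  ∀ p ∈ S, ∃ Φ : OpenPartialHomeomorph E E, p ∈ Φ.source ∧
    ContDiffOn ℝ (⊤ : ℕ∞) Φ Φ.source ∧ ContDiffOn ℝ (⊤ : ℕ∞) Φ.symm Φ.target ∧
    ∃ L : Submodule ℝ E, Module.finrank ℝ L = m ∧ Φ '' (S ∩ Φ.source) = (L : Set E) ∩ Φ.target

/-- the tangent space at `p` of an embedded submanifold `S` -/
noncomputable def tanSpace (S : Set E) (p : E) : Submodule ℝ E :=
  Submodule.span ℝ (tangentConeAt ℝ S p)

/-- the partial derivative in the `j`-th coordinate direction -/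
noncomputable def pd {m : ℕ} (φ : EuclideanSpace ℝ (Fin m) → E) (j : Fin m)
    (a : EuclideanSpace ℝ (Fin m)) : E :=
  fderiv ℝ φ a (EuclideanSpace.single j 1)

/-- `φ` is a local parametrisation of `S` on `O`: a smooth immersion of the open set `O ⊆ ℝ^m`
into `S`. -/
def IsParam {m : ℕ} (S : Set E) (O : Set (EuclideanSpace ℝ (Fin m)))
    (φ : EuclideanSpace ℝ (Fin m) → E) : Prop :=
  IsOpen O ∧ ContDiffOn ℝ (⊤ : ℕ∞) φ O ∧ MapsTo φ O S ∧
    ∀ a ∈ O, Function.Injective (fderiv ℝ φ a)

/-- The mean curvature vector in the parametrisation `φ`: the sum of `g^{ij}` times the normal part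
of `∂_i ∂_j φ`, where `g_{ij} = ⟨∂_i φ, ∂_j φ⟩`. -/
noncomputable def meanCurv {m : ℕ} (φ : EuclideanSpace ℝ (Fin m) → E)
    (a : EuclideanSpace ℝ (Fin m)) : E :=
  ∑ i, ∑ j, (Matrix.gram ℝ fun k => pd φ k a)⁻¹ i j •
    proj (Submodule.span ℝ (range fun k => pd φ k a))ᗮ (pd (pd φ j) i a)

/-- `H` is the mean curvature vector of the `m`-dimensional submanifold `S` at `p`. -/
def IsMeanCurv (m : ℕ) (S : Set E) (p H : E) : Prop :=
  ∀ (O : Set (EuclideanSpace ℝ (Fin m))) (φ : EuclideanSpace ℝ (Fin m) → E), IsParam S O φ →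
    ∀ a ∈ O, φ a = p → meanCurv φ a = H

/-- `S` is minimal: its mean curvature vector vanishes everywhere. -/
def IsMinimal (m : ℕ) (S : Set E) : Prop := ∀ p ∈ S, IsMeanCurv m S p 0

/-- `T` is an approximate tangent `m`-plane of `μ` at `x`: the blow-ups of `μ` at `x` converge
to a positive multiple of `H^m` on `T`. -/
def IsTangent (m : ℕ) (μ : Measure E) (x : E) (T : Submodule ℝ E) : Prop :=
  Module.finrank ℝ T = m ∧ ∃ c : ℝ, 0 < c ∧ ∀ g : E → ℝ, Continuous g → HasCompactSupport g →
    Tendsto (fun r : ℝ => (∫ y, g (r⁻¹ • (y - x)) ∂μ) / r ^ m) (𝓝[>] 0)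
      (𝓝 (c * ∫ y in (T : Set E), g y ∂μHE[m]))

/-- An integral `m`-varifold in `U`: a countably rectifiable set and a measurable, locally
integrable multiplicity with values in the positive integers. -/
structure Varifold (m : ℕ) (U : Set E) where
  /-- the rectifiable set -/
  carrier : Set E
  /-- the multiplicity -/
  mult : E → ℕ
  carrier_subset : carrier ⊆ U
  carrier_meas : NullMeasurableSet carrier (μHE[m] : Measure E)
  rectifiable : ∃ f : ℕ → EuclideanSpace ℝ (Fin m) → E,
    (∀ i, ∃ K : ℝ≥0, LipschitzWith K (f i)) ∧ μHE[m] (carrier \ ⋃ i, range (f i)) = 0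
  mult_meas : AEMeasurable mult ((μHE[m] : Measure E).restrict carrier)
  mult_pos : ∀ x ∈ carrier, 1 ≤ mult x
  locInt : ∀ K ⊆ U, IsCompact K → ∫⁻ x in carrier ∩ K, (mult x : ℝ≥0∞) ∂μHE[m] < ⊤

namespace Varifold

variable {m : ℕ} {U : Set E} (V : Varifold m U)

/-- the weight measure of the varifold -/
noncomputable def weight : Measure E :=
  ((μHE[m] : Measure E).restrict V.carrier).withDensity fun x => (V.mult x : ℝ≥0∞)

/-- the approximate tangent plane at `x`, where there is one -/
noncomputable def tangent (x : E) : Submodule ℝ E := Classical.epsilon (IsTangent m V.weight x)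

/-- stationarity -/
def IsStationary : Prop :=
  ∀ X, IsTestField U X → ∫ x, divAlong (V.tangent x) X x ∂V.weight = 0

/-- the support of the weight in `U` -/
def spt : Set E := V.weight.support ∩ U

/-- `p` is a regular point: in a neighbourhood `W` of `p` the varifold is an integer `q ≥ 1` times
a smooth embedded minimal submanifold without boundary in `W` (weights and tangent planes). -/
def IsRegular (p : E) : Prop :=
  ∃ W S : Set E, ∃ q : ℕ, IsOpen W ∧ p ∈ W ∧ W ⊆ U ∧ IsSmoothSubmanifold m S ∧ IsMinimal m S ∧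
    closure S ∩ W = S ∧ V.spt ∩ W = S ∧ 1 ≤ q ∧
    V.weight.restrict W = (q : ℝ≥0∞) • (μHE[m] : Measure E).restrict S ∧
    ∀ᵐ x ∂V.weight, x ∈ W → V.tangent x = tanSpace S x

/-- the singular set -/
def sing : Set E := {p ∈ V.spt | ¬ V.IsRegular p}

end Varifold

end Vale.Agent.P214W79
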