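import Vale.Agent.P214W79.Curv
import Mathlib.Topology.Instances.Matrix

/-! A smooth submanifold with zero first variation has zero mean curvature vector. -/

open MeasureTheory Set Filter Topology Metric
open scoped ENNReal ContDiff RealInnerProductSpace

set_option linter.unusedSectionVars false

namespace Vale.Agent.P214W79

open Vale.Agent.P214 Vale.Agent.P214.CST

variable {E : Type*} [NormedAddCommGroup E] [InnerProductSpace ℝ E] [FiniteDimensional ℝ E]
  [MeasurableSpace E] [BorelSpace E]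
variable {m : ℕ} {S W' : Set E} (P : Patch m S W')

/-- a normal field along the patch -/
noncomputable def nf (ν : E) (x : EuclideanSpace ℝ (Fin m)) : E :=
  ν - ∑ k, ⟪fderiv ℝ (ret P) (P.i x) (stdOrthonormalBasis ℝ E k), ν⟫ • stdOrthonormalBasis ℝ E k

lemma inner_nf (ν w : E) (x : EuclideanSpace ℝ (Fin m)) :
    ⟪w, nf P ν x⟫ = ⟪w, ν⟫ - ⟪fderiv ℝ (ret P) (P.i x) w, ν⟫ := by
  unfold nf
  rw [inner_sub_right, inner_sum]
  congr 1
  conv_rhs => rw [← (stdOrthonormalBasis ℝ E).sum_repr' w, map_sum, sum_inner]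
  refine Finset.sum_congr rfl fun k _ => ?_
  rw [map_smul, real_inner_smul_left, real_inner_smul_right, real_inner_comm w, mul_comm]

lemma contDiffAt_nf (ν : E) {x : EuclideanSpace ℝ (Fin m)} (hx : x ∈ ball 0 P.ρ) :
    ContDiffAt ℝ ∞ (nf P ν) x := by
  have h1 : ContDiffAt ℝ ∞ (fun x => fderiv ℝ (ret P) (P.i x)) x :=
    ((contDiffAt_ret P (P.maps_i x hx).2).fderiv_right (m := ∞) (by simp)).comp x
      (P.contDiffAt_i hx)
  refine contDiffAt_const.sub (ContDiffAt.sum fun k _ => ?_)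
  exact ((h1.clm_apply contDiffAt_const).inner ℝ contDiffAt_const).smul contDiffAt_const

lemma inner_pd_nf (ν : E) {x : EuclideanSpace ℝ (Fin m)} (hx : x ∈ ball 0 P.ρ) (j : Fin m) :
    ⟪pd P.i j x, nf P ν x⟫ = 0 := by
  rw [inner_nf, ← pd_eq P (isParam_i P) hx (P.maps_i x hx).2 j, sub_self]

lemma inner_pd_pd_nf (ν : E) {x : EuclideanSpace ℝ (Fin m)} (hx : x ∈ ball 0 P.ρ) (j k : Fin m) :
    ⟪pd P.i j x, pd (nf P ν) k x⟫ = -⟪pd (pd P.i j) k x, nf P ν x⟫ := by
  have h1 : HasFDerivAt (pd P.i j) (fderiv ℝ (pd P.i j) x) x :=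
    (((isParam_i P).contDiffAt_pd hx j).differentiableAt (by simp)).hasFDerivAt
  have h2 : HasFDerivAt (nf P ν) (fderiv ℝ (nf P ν) x) x :=
    ((contDiffAt_nf P ν hx).differentiableAt (by simp)).hasFDerivAt
  have h3 : (fun x => ⟪pd P.i j x, nf P ν x⟫) =ᶠ[𝓝 x] fun _ => (0 : ℝ) := by
    filter_upwards [isOpen_ball.mem_nhds hx] with x' hx'
    exact inner_pd_nf P ν hx' j
  have h4 := (h1.inner ℝ h2).unique ((hasFDerivAt_const (0 : ℝ) x).congr_of_eventuallyEq h3)
  have h5 := congrArg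
    (fun L : EuclideanSpace ℝ (Fin m) →L[ℝ] ℝ => L (EuclideanSpace.single k 1)) h4
  have h6 : ⟪pd P.i j x, pd (nf P ν) k x⟫ + ⟪pd (pd P.i j) k x, nf P ν x⟫ = 0 := h5
  linarith

lemma pd_eq_e (φ : EuclideanSpace ℝ (Fin m) → E) (j : Fin m) (x : EuclideanSpace ℝ (Fin m)) :
    fderiv ℝ φ x (Patch.e j) = pd φ j x := by
  simp [pd, Patch.e]

lemma gr_eq (x : EuclideanSpace ℝ (Fin m)) : P.gr x = Matrix.gram ℝ fun k => pd P.i k x := by
  unfold Patch.gr
  simp only [pd_eq_e]

/-- the component of the mean curvature along the normal field -/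
noncomputable def cf (ν : E) (x : EuclideanSpace ℝ (Fin m)) : ℝ :=
  ∑ k, ∑ j, (P.gr x)⁻¹ k j * ⟪pd (pd P.i j) k x, nf P ν x⟫

lemma continuousAt_cf (ν : E) {x : EuclideanSpace ℝ (Fin m)} (hx : x ∈ ball 0 P.ρ) :
    ContinuousAt (cf P ν) x := by
  have h1 : ContinuousAt P.gr x := by
    refine continuousAt_pi.2 fun j => continuousAt_pi.2 fun k => ?_
    exact ((P.contDiffAt_fderiv_apply hx _).inner ℝ (P.contDiffAt_fderiv_apply hx _)).continuousAt
  have h2 : ContinuousAt (fun x => (P.gr x)⁻¹) x := by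
    refine (continuousAt_matrix_inv _ ?_).comp h1
    rw [Ring.inverse_eq_inv']
    exact continuousAt_inv₀ (P.det_gr_pos hx).ne'
  refine tendsto_finsetSum _ fun k _ => tendsto_finsetSum _ fun j _ => ?_
  refine ContinuousAt.mul (continuousAt_pi.1 (continuousAt_pi.1 h2 k) j) ?_
  have h3 : ContDiffAt ℝ ∞ (pd (pd P.i j) k) x :=
    (((isParam_i P).contDiffAt_pd hx j).fderiv_right (m := ∞) (by simp)).clm_apply
      contDiffAt_const
  exact (h3.inner ℝ (contDiffAt_nf P ν hx)).continuousAt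

lemma cf_self {y : E} (hy : y ∈ S ∩ W') : cf P (hv P y) (P.κ y) = ‖hv P y‖ ^ 2 := by
  have hx := P.maps_κ y hy.2
  have hyx := P.right_inv y hy
  have hν : hv P y ∈ (P.tan (P.κ y))ᗮ := Patch.proj_mem _ _
  have h1 : ∀ w, ⟪w, nf P (hv P y) (P.κ y)⟫ = ⟪proj (P.tan (P.κ y))ᗮ w, hv P y⟫ := by
    intro w
    rw [inner_nf, hyx, Submodule.inner_right_of_mem_orthogonal (fderiv_ret_mem P hy.2 w) hν,
      sub_zero]
    unfold proj
    rw [Submodule.inner_starProjection_left_eq_right, Submodule.starProjection_eq_self_iff.2 hν]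
  have h2 := span_pd P (isParam_i P) hx (P.maps_i _ hx).2
  rw [hyx] at h2
  rw [← real_inner_self_eq_norm_sq]
  conv_rhs => enter [2]; rw [← meanCurv_i P hy]
  unfold cf meanCurv
  rw [h2, ← gr_eq, sum_inner]
  refine Finset.sum_congr rfl fun k _ => ?_
  rw [sum_inner]
  refine Finset.sum_congr rfl fun j _ => ?_
  rw [real_inner_smul_left, h1]

lemma exists_field (ν : E) {ψ : EuclideanSpace ℝ (Fin m) → ℝ} (hψ : ContDiff ℝ ∞ ψ)
    (hc : HasCompactSupport ψ) (hs : tsupport ψ ⊆ ball 0 P.ρ) :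
    ∃ X : E → E, P214.IsTestField W' X ∧ ∀ y ∈ S ∩ W',
      P214.divAlong (P214.tanSpace S y) X y = -(ψ (P.κ y) * cf P ν (P.κ y)) := by
  set G : EuclideanSpace ℝ (Fin m) → E := fun x => ψ x • nf P ν x with hG
  have hGs : tsupport G ⊆ tsupport ψ := by
    refine closure_mono fun x hx h0 => hx ?_
    simp [hG, h0]
  have hG1 : ContDiff ℝ 1 G := by
    rw [contDiff_iff_contDiffAt]
    intro x
    by_cases hx : x ∈ tsupport ψ
    · have h1 : ContDiffAt ℝ ∞ G x := hψ.contDiffAt.smul (contDiffAt_nf P ν (hs hx))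
      exact h1.of_le (by exact_mod_cast le_top)
    · have h1 : G =ᶠ[𝓝 x] fun _ => 0 := by
        filter_upwards [(isClosed_tsupport ψ).isOpen_compl.mem_nhds hx] with x' hx'
        have : ψ x' = 0 := image_eq_zero_of_notMem_tsupport hx'
        simp [hG, this]
      exact contDiffAt_const.congr_of_eventuallyEq h1
  have hGc : HasCompactSupport G := hc.of_isClosed_subset (isClosed_tsupport G) hGs
  obtain ⟨X, hX, hXG⟩ := P.ext G hG1 hGc (hGs.trans hs)
  refine ⟨X, hX, fun y hy => ?_⟩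
  have hx := P.maps_κ y hy.2
  rw [P.tanSpace_eq hy, P.divAlong_comp hy (hG1.differentiable (by norm_num) _) (hXG y hy)]
  set x := P.κ y
  have hψd : HasFDerivAt ψ (fderiv ℝ ψ x) x := (hψ.differentiable (by simp) x).hasFDerivAt
  have hnd : HasFDerivAt (nf P ν) (fderiv ℝ (nf P ν) x) x :=
    ((contDiffAt_nf P ν hx).differentiableAt (by simp)).hasFDerivAt
  have h1 : fderiv ℝ G x = _ := (hψd.smul hnd).fderiv
  have h2 : ∀ j k, ⟪fderiv ℝ P.i x (Patch.e j), fderiv ℝ G x (Patch.e k)⟫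
      = -(ψ x * ⟪pd (pd P.i j) k x, nf P ν x⟫) := by
    intro j k
    rw [h1]
    simp only [add_apply, smul_apply, ContinuousLinearMap.smulRight_apply, pd_eq_e,
      inner_add_right, real_inner_smul_right, inner_pd_nf P ν hx, inner_pd_pd_nf P ν hx]
    ring
  unfold cf
  rw [Finset.mul_sum, ← Finset.sum_neg_distrib]
  refine Finset.sum_congr rfl fun k _ => ?_
  rw [P.pin_apply hx, Finset.mul_sum, ← Finset.sum_neg_distrib]
  simp only [Matrix.mulVec, dotProduct, h2]
  refine Finset.sum_congr rfl fun j _ => ?_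
  ring

/-- zero first variation implies zero mean curvature -/
theorem isMeanCurv_zero {W : Set E} (hS : IsSmoothSubmanifold m S) (hmin : IsMinimalIn m S W)
    {p : E} (hp : p ∈ S) (hW : W ∈ 𝓝 p) : IsMeanCurv m S p 0 := by
  obtain ⟨W', hpW, hW'W, P, hκ⟩ := exists_patch hS hp hW
  suffices h : hv P p = 0 from h ▸ isMeanCurv_hv P hpW
  by_contra hne
  set ν := hv P p
  have h0 : (0 : EuclideanSpace ℝ (Fin m)) ∈ ball 0 P.ρ := mem_ball_self P.hρ
  have hc0 : 0 < cf P ν 0 := by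
    rw [← hκ, cf_self P ⟨hp, hpW⟩]
    exact pow_pos (norm_pos_iff.2 hne) 2
  have h1 : ∀ᶠ x in 𝓝 (0 : EuclideanSpace ℝ (Fin m)), x ∈ ball 0 P.ρ ∧ 0 < cf P ν x :=
    (isOpen_ball.eventually_mem h0).and ((continuousAt_cf P ν h0).eventually (lt_mem_nhds hc0))
  obtain ⟨r, hr, hball⟩ := Metric.nhds_basis_closedBall.mem_iff.1 h1
  let ψ : ContDiffBump (0 : EuclideanSpace ℝ (Fin m)) := ⟨r / 2, r, by positivity, by linarith⟩
  have hψs : tsupport ψ = closedBall 0 r := ψ.tsupport_eq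
  obtain ⟨X, hX, hXd⟩ := exists_field P ν ψ.contDiff ψ.hasCompactSupport
    (fun x hx => (hball (hψs ▸ hx)).1)
  set f : EuclideanSpace ℝ (Fin m) → ℝ := fun x => ψ x * cf P ν x with hf
  have hf0 : ∀ x, x ∉ closedBall (0 : EuclideanSpace ℝ (Fin m)) r → f x = 0 := by
    intro x hx
    have : ψ x = 0 := image_eq_zero_of_notMem_tsupport (hψs ▸ hx)
    simp [hf, this]
  have hfc : Continuous f := by
    rw [continuous_iff_continuousAt]
    intro x
    by_cases hx : x ∈ closedBall (0 : EuclideanSpace ℝ (Fin m)) r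
    · exact ψ.continuous.continuousAt.mul (continuousAt_cf P ν (hball hx).1)
    · have h2 : f =ᶠ[𝓝 x] fun _ => 0 := by
        filter_upwards [isClosed_closedBall.isOpen_compl.mem_nhds hx] with x' hx'
        exact hf0 x' hx'
      exact continuousAt_const.congr h2.symm
  have hfn : ∀ x, 0 ≤ f x := by
    intro x
    by_cases hx : x ∈ closedBall (0 : EuclideanSpace ℝ (Fin m)) r
    · exact mul_nonneg ψ.nonneg (hball hx).2.le
    · exact (hf0 x hx).ge
  obtain ⟨C, hC⟩ := hfc.bounded_above_of_compact_support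
    (HasCompactSupport.intro (isCompact_closedBall 0 r) hf0)
  have hSm : MeasurableSet (S ∩ W') := by
    have h2 : P.nb P.ρ = W' := inter_eq_left.2 fun y hy => P.maps_κ y hy
    rw [← h2]
    exact P.measurableSet_nb P.ρ
  have hfin : IsFiniteMeasure ((μH[m] : Measure E).restrict (S ∩ W')) := by
    refine ⟨?_⟩
    rw [Measure.restrict_apply_univ, ← P.i_image]
    refine (P.lip_i.hausdorffMeasure_image_le (d := (m : ℝ)) (Nat.cast_nonneg m)).trans_lt ?_
    exact ENNReal.mul_lt_top (ENNReal.rpow_lt_top_of_nonneg (Nat.cast_nonneg m) ENNReal.coe_ne_top)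
      measure_ball_lt_top
  have hint : Integrable (fun y => f (P.κ y)) ((μH[m] : Measure E).restrict (S ∩ W')) := by
    refine Integrable.of_bound ?_ C (Eventually.of_forall fun y => hC _)
    exact (hfc.comp_continuousOn
      (P.smooth_κ.continuousOn.mono inter_subset_right)).aestronglyMeasurable hSm
  have h2 := hmin X ⟨hX.1, hX.2.1, hX.2.2.trans hW'W⟩
  have hoff : ∀ y, y ∉ W' → P214.divAlong (P214.tanSpace S y) X y = 0 := fun y hy => by
    have h3 : fderiv ℝ X y = 0 := by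
      by_contra h4
      exact hy (hX.2.2 (support_fderiv_subset ℝ h4))
    unfold P214.divAlong
    rw [h3]; simp
  rw [← setIntegral_eq_integral_of_forall_compl_eq_zero hoff,
    Measure.restrict_restrict P.isOpen.measurableSet, inter_comm,
    setIntegral_congr_fun hSm hXd, integral_neg, neg_eq_zero] at h2
  have h3 := (integral_eq_zero_iff_of_nonneg (fun y => hfn _) hint).1 h2
  have h4 : (μH[m] : Measure E) ({y | f (P.κ y) ≠ 0} ∩ (S ∩ W')) = 0 := by
    rw [← Measure.restrict_apply' hSm]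
    exact h3
  have h5 := (P.lip_κ.mono (inter_subset_right (s := {y | f (P.κ y) ≠ 0}))).hausdorffMeasure_image_le
    (d := (m : ℝ)) (Nat.cast_nonneg m)
  rw [h4, mul_zero] at h5
  have h6 : ball (0 : EuclideanSpace ℝ (Fin m)) (r / 2)
      ⊆ P.κ '' ({y | f (P.κ y) ≠ 0} ∩ (S ∩ W')) := by
    intro x hx
    have hx1 : x ∈ closedBall (0 : EuclideanSpace ℝ (Fin m)) r :=
      ball_subset_closedBall (ball_subset_ball (by linarith) hx)
    refine ⟨P.i x, ⟨?_, P.maps_i x (hball hx1).1⟩, P.left_inv x (hball hx1).1⟩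
    show f (P.κ (P.i x)) ≠ 0
    rw [P.left_inv x (hball hx1).1]
    have h7 : ψ x = 1 := ψ.one_of_mem_closedBall (ball_subset_closedBall hx)
    simp only [hf, h7, one_mul]
    exact (hball hx1).2.ne'
  exact (measure_ball_pos (μH[m] : Measure (EuclideanSpace ℝ (Fin m))) 0
    (by positivity : 0 < r / 2)).not_ge ((measure_mono h6).trans h5)

end Vale.Agent.P214W79
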