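import Vale.Agent.P214W79.Defs

/-! Traces over a plane in terms of an arbitrary basis of the plane. -/

open Set
open scoped RealInnerProductSpace

set_option linter.unusedSectionVars false

namespace Vale.Agent.P214W79

variable {E : Type*} [NormedAddCommGroup E] [InnerProductSpace ℝ E] [FiniteDimensional ℝ E]

lemma proj_eq_sum {m : ℕ} {u : Fin m → E} (hu : LinearIndependent ℝ u) (w : E) :
    proj (Submodule.span ℝ (range u)) w
      = ∑ i, ∑ j, ((Matrix.gram ℝ u)⁻¹ i j * ⟪u j, w⟫) • u i := by
  have hdet : IsUnit (Matrix.gram ℝ u).det :=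
    isUnit_iff_ne_zero.2 (Matrix.det_gram_ne_zero_iff_linearIndependent.2 hu)
  unfold proj
  refine Submodule.eq_starProjection_of_mem_of_inner_eq_zero ?_ ?_
  · exact Submodule.sum_mem _ fun i _ => Submodule.sum_mem _ fun j _ =>
      Submodule.smul_mem _ _ (Submodule.subset_span (mem_range_self i))
  · intro z hz
    induction hz using Submodule.span_induction with
    | mem x hx =>
      obtain ⟨k, rfl⟩ := hx
      have h1 : ∀ j, ∑ i, (Matrix.gram ℝ u) k i * (Matrix.gram ℝ u)⁻¹ i j
          = if k = j then 1 else 0 := by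
        intro j
        have := congrFun (congrFun (Matrix.mul_nonsing_inv _ hdet) k) j
        rw [Matrix.mul_apply, Matrix.one_apply] at this
        exact this
      have h2 : ⟪∑ i, ∑ j, ((Matrix.gram ℝ u)⁻¹ i j * ⟪u j, w⟫) • u i, u k⟫
          = ∑ j, (∑ i, (Matrix.gram ℝ u) k i * (Matrix.gram ℝ u)⁻¹ i j) * ⟪u j, w⟫ := by
        simp only [sum_inner, real_inner_smul_left, Finset.sum_mul]
        rw [Finset.sum_comm]
        refine Finset.sum_congr rfl fun j _ => Finset.sum_congr rfl fun i _ => ?_
        rw [Matrix.gram_apply, real_inner_comm (u i) (u k)]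
        ring
      rw [inner_sub_left, h2]
      simp only [h1, ite_mul, one_mul, zero_mul, Finset.sum_ite_eq, Finset.mem_univ, if_true]
      rw [real_inner_comm, sub_self]
    | zero => exact inner_zero_right _
    | add x y _ _ hx hy => rw [inner_add_right, hx, hy, add_zero]
    | smul c x _ hx => rw [inner_smul_right, hx, mul_zero]

lemma sum_gram_inv {m : ℕ} {u : Fin m → E} (hu : LinearIndependent ℝ u)
    (B : E →L[ℝ] E →L[ℝ] E) :
    ∑ i, ∑ j, (Matrix.gram ℝ u)⁻¹ i j • B (u i) (u j)
      = ∑ k, B (proj (Submodule.span ℝ (range u)) (stdOrthonormalBasis ℝ E k))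
          (stdOrthonormalBasis ℝ E k) := by
  set b := stdOrthonormalBasis ℝ E
  have h1 : ∀ i j, B (u i) (u j) = ∑ k, ⟪u j, b k⟫ • B (u i) (b k) := by
    intro i j
    conv_lhs => rw [← b.sum_repr' (u j), map_sum]
    refine Finset.sum_congr rfl fun k _ => ?_
    rw [map_smul, real_inner_comm]
  simp only [proj_eq_sum hu, map_sum, map_smul, sum_apply, smul_apply]
  symm
  rw [Finset.sum_comm]
  refine Finset.sum_congr rfl fun i _ => ?_
  rw [Finset.sum_comm]
  refine Finset.sum_congr rfl fun j _ => ?_
  rw [h1, Finset.smul_sum]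
  refine Finset.sum_congr rfl fun k _ => ?_
  rw [smul_smul]

lemma linearIndependent_pd {m : ℕ} {φ : EuclideanSpace ℝ (Fin m) → E}
    {a : EuclideanSpace ℝ (Fin m)} (h : Function.Injective (fderiv ℝ φ a)) :
    LinearIndependent ℝ fun k => pd φ k a := by
  have h1 := (EuclideanSpace.basisFun (Fin m) ℝ).toBasis.linearIndependent.map'
    (fderiv ℝ φ a).toLinearMap (LinearMap.ker_eq_bot.2 h)
  have h2 : (fun k => pd φ k a) = (fderiv ℝ φ a).toLinearMap ∘
      (EuclideanSpace.basisFun (Fin m) ℝ).toBasis := by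
    funext k
    simp [pd]
  rw [h2]
  exact h1

end Vale.Agent.P214W79
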