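import Vale.Agent.P214W79.First
import Vale.Agent.P214T.Stmt

/-! Passage from the normalised Hausdorff measure to Mathlib's `μH[m]`. -/

open MeasureTheory Set Filter Topology Metric
open scoped ENNReal NNReal

set_option linter.unusedSectionVars false

namespace Vale.Agent.P214W79

open Vale.Agent.P214

variable {E : Type*} [NormedAddCommGroup E] [InnerProductSpace ℝ E] [FiniteDimensional ℝ E]
  [MeasurableSpace E] [BorelSpace E]

/-- the normalising constant -/
noncomputable def cc (m : ℕ) : ℝ≥0 :=
  Measure.addHaarScalarFactor (volume : Measure (EuclideanSpace ℝ (Fin m))) μH[m]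

lemma cc_ne (m : ℕ) : (cc m : ℝ≥0∞) ≠ 0 :=
  ENNReal.coe_ne_zero.2 (Measure.addHaarScalarFactor_volume_hausdorffMeasure_ne_zero m)

lemma cc_pos (m : ℕ) : 0 < (cc m : ℝ) :=
  NNReal.coe_pos.2 (pos_iff_ne_zero.2 (ENNReal.coe_ne_zero.1 (cc_ne m)))

lemma hE (m : ℕ) : (μHE[m] : Measure E) = (cc m : ℝ≥0∞) • μH[m] := rfl

lemma hac (m : ℕ) : (μH[m] : Measure E) ≪ μHE[m] := by
  rw [hE]; exact Measure.absolutelyContinuous_smul (cc_ne m)

lemma isTangent_iff (m : ℕ) (μ : Measure E) (x : E) (T : Submodule ℝ E) :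
    IsTangent m ((cc m : ℝ≥0∞) • μ) x T ↔ P214T.IsTangent m μ x T := by
  unfold IsTangent P214T.IsTangent
  refine and_congr Iff.rfl (exists_congr fun d => and_congr Iff.rfl
    (forall_congr' fun g => forall_congr' fun _ => forall_congr' fun _ => ?_))
  simp only [hE, Measure.restrict_smul, integral_smul_measure, ENNReal.coe_toReal, smul_eq_mul]
  have hc := (cc_pos m).ne'
  constructor
  · intro h
    have h1 := h.const_mul (cc m : ℝ)⁻¹
    convert h1 using 2
    · field_simp
    · field_simp
  · intro h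
    have h1 := h.const_mul (cc m : ℝ)
    convert h1 using 2
    · ring
    · ring

namespace Varifold

variable {m : ℕ} {U : Set E} (V : Varifold m U)

lemma weight_eq' : V.weight = (cc m : ℝ≥0∞) • weightOf m V.carrier V.mult := by
  unfold weight weightOf
  rw [hE, Measure.restrict_smul, withDensity_smul_measure]

lemma weight_lt_top {K : Set E} (hK : K ⊆ U) (hc : IsCompact K) : V.weight K < ⊤ := by
  unfold weight
  rw [withDensity_apply _ hc.measurableSet, Measure.restrict_restrict hc.measurableSet, inter_comm]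
  exact V.locInt K hK hc

/-- the same varifold, described with `μH[m]` -/
def old : P214T.Varifold m U where
  carrier := V.carrier
  mult := V.mult
  carrier_subset := V.carrier_subset
  carrier_meas := V.carrier_meas.mono_ac (hac m)
  rectifiable := by
    obtain ⟨f, hf, h0⟩ := V.rectifiable
    refine ⟨fun i => f i ∘ WithLp.toLp 2, fun i => ?_, ?_⟩
    · obtain ⟨K, hK⟩ := hf i
      exact ⟨_, hK.comp (PiLp.lipschitzWith_toLp 2 _)⟩
    · simp only [(WithLp.toLp_surjective 2).range_comp]
      exact hac m h0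
  mult_meas := V.mult_meas.mono_ac ((hac m).restrict _)
  mult_pos := V.mult_pos
  locFinite := fun K hK hc => by
    have h := V.weight_lt_top hK hc
    rw [weight_eq', Measure.smul_apply, smul_eq_mul] at h
    exact ENNReal.lt_top_of_mul_ne_top_right h.ne (cc_ne m)

lemma weight_eq : V.weight = (cc m : ℝ≥0∞) • V.old.weight := V.weight_eq'

lemma weight_ac : V.weight ≪ V.old.weight := by
  rw [weight_eq]; exact Measure.smul_absolutelyContinuous

lemma isTangent_weight (x : E) (T : Submodule ℝ E) :
    IsTangent m V.weight x T ↔ P214T.IsTangent m V.old.weight x T := by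
  rw [weight_eq, isTangent_iff]

lemma tangent_eq (x : E) : V.tangent x = V.old.tangent x :=
  congrArg Classical.epsilon (funext fun T => propext (V.isTangent_weight x T))

lemma stationary (h : V.IsStationary) : V.old.IsStationary := by
  intro X hX
  have h1 := h X hX
  simp only [tangent_eq] at h1
  rw [weight_eq, integral_smul_measure, ENNReal.coe_toReal, smul_eq_mul] at h1
  exact (mul_eq_zero.1 h1).resolve_left (cc_pos m).ne'

lemma spt_eq : V.spt = V.old.spt := by
  ext x
  unfold spt P214T.Varifold.spt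
  rw [mem_inter_iff, Measure.mem_support_iff_forall, and_comm, weight_eq]
  refine and_congr Iff.rfl (forall_congr' fun W => forall_congr' fun _ => ?_)
  rw [Measure.smul_apply, smul_eq_mul, ENNReal.mul_pos_iff]
  exact and_iff_right (pos_iff_ne_zero.2 (cc_ne m))

lemma tangent_ae (V' : IntegralVarifold m U) {W S : Set E} (hW : IsOpen W) (hWU : W ⊆ U)
    (hS : V'.spt ∩ W = S) (hsm : IsSmoothSubmanifold m S) :
    ∀ᵐ x ∂V'.weight, x ∈ W → V'.tangent x = P214.tanSpace S x := by
  have h1 : V'.weight {x | x ∈ S ∧ V'.tangent x ≠ P214.tanSpace S x} = 0 := by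
    refine measure_null_of_locally_null _ fun x hx => ?_
    obtain ⟨W', hxW, hW'W, P, -⟩ := CST.exists_patch hsm hx.1
      (hW.mem_nhds (hS ▸ hx.1 : x ∈ V'.spt ∩ W).2)
    refine ⟨_, inter_mem_nhdsWithin _ (P.isOpen.mem_nhds hxW), ?_⟩
    have h2 := P.tangent_ae V' (hW'W.trans hWU) fun y hy => hS ▸ ⟨hy.1, hW'W hy.2⟩
    refine measure_mono_null (fun y hy => ?_) (ae_iff.1 h2)
    intro h3
    refine hy.1.2 ?_
    rw [h3 hy.2, P.tanSpace_eq ⟨hy.1.1, hy.2⟩]
  filter_upwards [measure_eq_zero_iff_ae_notMem.1 h1, CST.Patch.ae_mem_spt V' hWU] with x h2 h3 hx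
  by_contra h4
  exact h2 ⟨hS ▸ ⟨h3 hx, hx⟩, h4⟩

variable (V' : IntegralVarifold m U) (hw' : V'.weight = V.old.weight)
  (ht' : V'.tangent = V.old.tangent)

include hw' ht' in
lemma regular {p : E} (h : V.old.IsRegular p) : V.IsRegular p := by
  obtain ⟨W, S, q, hW, hp, hWU, hS, hsm, hmin, hq, hw⟩ := h
  have hS' : V'.spt ∩ W = S := by
    rw [← hS]
    unfold IntegralVarifold.spt P214T.Varifold.spt
    rw [hw']
  have ht := tangent_ae V' hW hWU hS' hsm
  rw [hw', ht'] at ht
  rw [← spt_eq] at hS
  have hSW : S ⊆ W := hS ▸ inter_subset_right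
  refine ⟨W, S, q, hW, hp, hWU, hsm, fun y hy => isMeanCurv_zero hsm hmin hy
    (hW.mem_nhds (hSW hy)), ?_, hS, hq, ?_, ?_⟩
  · refine Subset.antisymm ?_ (subset_inter subset_closure hSW)
    rintro y ⟨hy1, hy2⟩
    have h1 : closure S ⊆ V.weight.support :=
      closure_minimal (hS ▸ fun z hz => hz.1.1) Measure.isClosed_support
    rw [← hS]
    exact ⟨⟨h1 hy1, hWU hy2⟩, hy2⟩
  · rw [weight_eq, Measure.restrict_smul, hw, hE, Measure.restrict_smul, smul_comm]
  · filter_upwards [V.weight_ac.ae_le ht] with x hx hxW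
    rw [tangent_eq]
    exact hx hxW

include hw' ht' in
lemma sing_subset : V.sing ⊆ V.old.sing := fun _ hp =>
  ⟨V.spt_eq ▸ hp.1, fun h => hp.2 (V.regular V' hw' ht' h)⟩

lemma integrable_div (hm : AEStronglyMeasurable (fun x => proj (V.tangent x)) V.weight)
    {X : E → E} (hX : IsTestField U X) :
    Integrable (fun x => divAlong (V.tangent x) X x) V.weight := by
  let L : (E →L[ℝ] E) →L[ℝ] ℝ := LinearMap.toContinuousLinearMap
    ((LinearMap.trace ℝ E).comp (ContinuousLinearMap.coeLM ℝ))
  have hL : ∀ x, divAlong (V.tangent x) X x = L ((proj (V.tangent x)).comp (fderiv ℝ X x)) :=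
    fun x => rfl
  have hc : Continuous (fderiv ℝ X) := hX.1.continuous_fderiv one_ne_zero
  obtain ⟨C, hC⟩ := hc.bounded_above_of_compact_support (hX.2.1.fderiv ℝ)
  have hfin : IsFiniteMeasure (V.weight.restrict (tsupport X)) :=
    ⟨by rw [Measure.restrict_apply_univ]; exact V.weight_lt_top hX.2.2 hX.2.1⟩
  have hs : Function.support (fun x => divAlong (V.tangent x) X x) ⊆ tsupport X := by
    intro x hx
    by_contra h
    apply hx
    have h1 : fderiv ℝ X x = 0 := by
      by_contra h4
      exact h (support_fderiv_subset ℝ h4)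
    show divAlong (V.tangent x) X x = 0
    rw [hL, h1]; simp
  rw [← integrableOn_iff_integrable_of_support_subset hs]
  refine Integrable.of_bound ?_ (‖L‖ * C) (Eventually.of_forall fun x => ?_)
  · simp only [hL]
    refine L.continuous.comp_aestronglyMeasurable ?_
    exact (ContinuousLinearMap.compL ℝ E E E).aestronglyMeasurable_comp₂ hm.restrict
      hc.aestronglyMeasurable
  · rw [hL]
    refine (L.le_opNorm _).trans (mul_le_mul_of_nonneg_left ?_ (norm_nonneg _))
    refine (ContinuousLinearMap.opNorm_comp_le _ _).trans ?_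
    have h1 : ‖proj (V.tangent x)‖ ≤ 1 := Submodule.starProjection_norm_le _
    calc ‖proj (V.tangent x)‖ * ‖fderiv ℝ X x‖ ≤ 1 * C :=
          mul_le_mul h1 (hC x) (norm_nonneg _) zero_le_one
      _ = C := one_mul C

end Varifold

end Vale.Agent.P214W79
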